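import Vale.Agent.P095.RFinal
import Vale.Agent.P095.GW3
import Vale.Agent.P095G.QF

open Filter Topology

namespace Vale.Agent.Results.P095.AmenableActions

open Vale.Agent.P095 Vale.Agent.P095G

universe u v

theorem result (A : Type u) [NonUnitalCStarAlgebra A] [Nontrivial A]
    [TopologicalSpace.SeparableSpace A] (ω : Ultrafilter ℕ) (hω : (ω : Filter ℕ) ≤ cofinite)
    (G : Type v) [Group G] [Countable G] (α : G →* (A ≃⋆ₐ[ℂ] A)) :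
    (EqZ A ω α ⊥ → Folner G → UnifGammaF α ∧ EqGammaW α) ∧
    (EqZ A ω α ⊥ → LocFin G → EqZ A ω α ⊤) ∧
    (EqZ A ω α ⊥ → (∃ d : ℕ, TowerDim A ω α d) → EqZ A ω α ⊤) ∧
    (EqZ A ω α ⊥ → VirtU G (TrivF A ω α) → EqZ A ω α ⊤) ∧
    (VirtU G (EqZ A ω α) → EqZ A ω α ⊤) ∧
    (EqZ A ω α ⊤ ↔ ¬ ∃ χ : (ℕ → A) → ℂ, FixChar A ω α ⊤ χ) := by
  rw [Nat.cofinite_eq_atTop] at hω
  obtain ⟨F, _, ⟨M⟩⟩ := exists_fmod A ω
  exact ⟨fun h hG => ⟨main_amF hω hG α h, gw_main hω hG α h⟩, fun h1 h2 => mainN_lf hω M α h2 h1,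
    fun h1 ⟨d, h2⟩ => main_tower hω M α h1 h2, fun h1 h2 => mainN_triv hω M α h1 h2,
    fun h => mainN_red hω M α h, eqZN_char hω M α ⊤⟩

end Vale.Agent.Results.P095.AmenableActions
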