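import Vale.Agent.P095G.N8

namespace Vale.Agent.Results.P095.AmenableGamma

open Vale.Agent.P095 Vale.Agent.P095G

universe u v

theorem result (A : Type u) [CStarAlgebra A] [Nontrivial A] [TopologicalSpace.SeparableSpace A]
    (ω : Ultrafilter ℕ) (hω : (ω : Filter ℕ) ≤ Filter.cofinite) (h : ZStable A ω)
    (G : Type v) [Group G] [Countable G] (hG : Folner G) (α : G →* (A ≃⋆ₐ[ℂ] A)) :
    UnifGamma α := by
  rw [Nat.cofinite_eq_atTop] at hω
  exact main_amN A ω hω h G hG α

end Vale.Agent.Results.P095.AmenableGamma
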