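import Vale.Agent.P095.RFinal

open Filter Topology

namespace Vale.Agent.Results.P095.RokhlinTowers

open Vale.Agent.P095

universe u v

theorem result (A : Type u) [NonUnitalCStarAlgebra A] [Nontrivial A]
    [TopologicalSpace.SeparableSpace A] (ω : Ultrafilter ℕ) (hω : (ω : Filter ℕ) ≤ cofinite)
    (G : Type v) [Group G] [Countable G] (α : G →* (A ≃⋆ₐ[ℂ] A)) :
    (EqZ A ω α ⊤ ↔ ¬ ∃ χ : (ℕ → A) → ℂ, FixChar A ω α ⊤ χ) ∧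
    ((∀ S : Finset G, (Subgroup.closure (S : Set G) : Set G).Finite) → EqZ A ω α ⊥ →
      EqZ A ω α ⊤) ∧
    ((∀ S : Finset G, ∃ K H : Subgroup G, (S : Set G) ⊆ K ∧ H ≤ K ∧ H.relIndex K ≠ 0 ∧
        EqZ A ω α H) → EqZ A ω α ⊤) ∧
    (EqZ A ω α ⊥ → (∀ S : Finset G, ∃ K H : Subgroup G, (S : Set G) ⊆ K ∧ H ≤ K ∧
        H.relIndex K ≠ 0 ∧ ∀ h ∈ H, ∀ x : ℕ → A, FixSeq A ω α ⊥ x → ∀ a : A,
          Tendsto (fun n => ‖(α h (x n) - x n) * a‖) ω (𝓝 0)) →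
      EqZ A ω α ⊤) ∧
    (EqZ A ω α ⊥ → (∃ d : ℕ, TowerDim A ω α d) → EqZ A ω α ⊤) := by
  rw [Nat.cofinite_eq_atTop] at hω
  obtain ⟨F, _, ⟨M⟩⟩ := exists_fmod A ω
  exact ⟨eqZN_char hω M α ⊤, fun h1 h2 => mainN_lf hω M α h1 h2, fun h => mainN_red hω M α h,
    fun h1 h2 => mainN_triv hω M α h1 h2, fun h1 ⟨d, h2⟩ => main_tower hω M α h1 h2⟩

end Vale.Agent.Results.P095.RokhlinTowers
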